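import Vale.Agent.P218N.Core.PathC
import Vale.Agent.P218N.End.ApiReal
import Vale.Agent.P218N.End.ApiCv2
import Vale.Agent.P218N.End.ApiTr
import Vale.Agent.P218N.End.ApiSub

/-! Concatenation of jets along the universal path. -/

open Set Filter Topology

noncomputable section

namespace Vale.Agent.P218N.Ext

open Vale.Agent.P218N.End Vale.Agent.P218N.J Vale.Agent.P218N.Core Vale.Agent.P218N.H
  Vale.Agent.P218N.Core.PathP Vale.Agent.P218N.End.RE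

variable {w : E3 → ℝ} {D : EndData w} {zm T T' τ t t' : ℝ} {γ γ' : Path} {k n m : ℕ}
  {j j' J : EJ} {Γ Γ₁ Γ₂ : Ctr}

/-- composition with a continuous map -/
def cW (φ : C(ℝ, ℝ)) : WB →L[ℂ] WB :=
  W.diag fun _ => BoundedContinuousFunction.compContinuousCLM ℂ ℂ φ

theorem tr_cW (φ : C(ℝ, ℝ)) (f : WB) (t : ℝ) : tr t (cW φ f) = tr (φ t) f :=
  W.ext fun m => by rw [c_tr, c_tr, cW, W.c_diag_const]; rfl

/-- concatenation at `τ` -/
def catW (τ : ℝ) : WB × WB →L[ℂ] WB := (cW ⟨fun t => min t τ, by fun_prop⟩).coprod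
  (cW ⟨fun t => max t τ, by fun_prop⟩ - cW (ContinuousMap.const ℝ τ))

theorem tr_catW (f f' : WB) (t : ℝ) :
    tr t (catW τ (f, f')) = tr (min t τ) f + (tr (max t τ) f' - tr τ f') := by
  rw [catW, ContinuousLinearMap.coprod_apply, map_add, sub_apply, map_sub,
    tr_cW, tr_cW, tr_cW]
  rfl

theorem tr_lo (f f' : WB) (ht : t ≤ τ) : tr t (catW τ (f, f')) = tr t f := by
  rw [tr_catW, min_eq_left ht, max_eq_right ht, sub_self, add_zero]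

theorem tr_hi {f f' : WB} (h : tr τ f = tr τ f') (ht : τ ≤ t) : tr t (catW τ (f, f')) = tr t f' := by
  rw [tr_catW, min_eq_right ht, max_eq_left ht, h, add_sub_cancel]

/-- concatenation of one component -/
def catC (τ : ℝ) (p : EJ →L[ℂ] WB) : EJ × EJ →L[ℂ] WB := (catW τ).comp (p.prodMap p)

/-- concatenation of jets at `τ` -/
def Cat (τ : ℝ) : EJ × EJ →L[ℂ] EJ :=
  (catC τ (.fst ℂ _ _)).prod ((catC τ ((ContinuousLinearMap.fst ℂ _ _).comp (.snd ℂ _ _))).prod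
    ((catC τ ((ContinuousLinearMap.fst ℂ _ _).comp
      ((ContinuousLinearMap.snd ℂ _ _).comp (.snd ℂ _ _)))).prod
    (catC τ ((ContinuousLinearMap.snd ℂ _ _).comp
      ((ContinuousLinearMap.snd ℂ _ _).comp (.snd ℂ _ _))))))

theorem eqAt_lo (j j' : EJ) (ht : t ≤ τ) : EqAt (Cat τ (j, j')) t j t :=
  ⟨tr_lo _ _ ht, tr_lo _ _ ht, tr_lo _ _ ht, tr_lo _ _ ht⟩

theorem eqAt_hi (h : EqAt j τ j' τ) (ht : τ ≤ t) : EqAt (Cat τ (j, j')) t j' t :=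
  ⟨tr_hi h.1 ht, tr_hi h.2.1 ht, tr_hi h.2.2.1 ht, tr_hi h.2.2.2 ht⟩

theorem cat_cj (j j' : EJ) : Cat τ (j.cj, j'.cj) = (Cat τ (j, j')).cj := by
  have e : ∀ f f', catW τ (W.cj f, W.cj f') = W.cj (catW τ (f, f')) := fun f f' =>
    ext_ev fun t θ => by
      rw [← sumL_tr, ← sumL_tr, ← cj_tr, tr_catW, tr_catW, W.cj_add, W.cj_sub, cj_tr, cj_tr, cj_tr]
  exact EJ.ext' (e _ _) (e _ _) (e _ _) (e _ _)

theorem der_glue {f f₁ f₂ d d₁ d₂ : ℝ → ℂ} (h₁ : ∀ t ≤ τ, f t = f₁ t ∧ d t = d₁ t)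
    (h₂ : ∀ t, τ ≤ t → f t = f₂ t ∧ d t = d₂ t) (a₁ : ∀ t, HasDerivAt f₁ (d₁ t) t)
    (a₂ : ∀ t, HasDerivAt f₂ (d₂ t) t) (t : ℝ) : HasDerivAt f (d t) t := by
  rw [← hasDerivWithinAt_univ, ← Iic_union_Ici (a := τ)]
  refine HasDerivWithinAt.union ?_ ?_
  · by_cases ht : t ≤ τ
    · rw [(h₁ t ht).2]
      exact (a₁ t).hasDerivWithinAt.congr (fun x hx => (h₁ x hx).1) (h₁ t ht).1
    · exact HasFDerivWithinAt.of_notMem_closure (by simpa using ht)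
  · by_cases ht : τ ≤ t
    · rw [(h₂ t ht).2]
      exact (a₂ t).hasDerivWithinAt.congr (fun x hx => (h₂ x hx).1) (h₂ t ht).1
    · exact HasFDerivWithinAt.of_notMem_closure (by simpa using ht)

theorem c_at (h : EqAt j t j' t') (hi : Γ₁.io t = Γ₂.io t') (m : ℤ) : j.y.c m t = j'.y.c m t' ∧
    (Γ₁.io * j.op.c m) t = (Γ₂.io * j'.op.c m) t' ∧
    (Γ₁.io * j.oq.c m) t = (Γ₂.io * j'.oq.c m) t' := by
  simp only [EJ.c_y, BoundedContinuousFunction.smul_apply, BoundedContinuousFunction.mul_apply, hi,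
    c_of_tr h.1, c_of_tr h.2.1, c_of_tr h.2.2.1, and_self]

theorem jet_glue (h₁ : ∀ t ≤ τ, EqAt J t j t ∧ Γ.g t = Γ₁.g t ∧ Γ.io t = Γ₁.io t)
    (h₂ : ∀ t, τ ≤ t → EqAt J t j' t ∧ Γ.g t = Γ₂.g t ∧ Γ.io t = Γ₂.io t) (a₁ : Γ₁.IsJet j)
    (a₂ : Γ₂.IsJet j') : Γ.IsJet J := fun m => by
  have c₁ := fun t ht => c_at (h₁ t ht).1 (h₁ t ht).2.2 m
  have c₂ := fun t ht => c_at (h₂ t ht).1 (h₂ t ht).2.2 m
  refine ⟨der_glue (fun t ht => ⟨(c₁ t ht).1, by rw [(h₁ t ht).2.1, (c₁ t ht).2.1]⟩)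
    (fun t ht => ⟨(c₂ t ht).1, by rw [(h₂ t ht).2.1, (c₂ t ht).2.1]⟩) (a₁ m).1 (a₂ m).1,
    der_glue (fun t ht => ⟨(c₁ t ht).2.1, by rw [(h₁ t ht).2.1, (c₁ t ht).2.2]⟩)
    (fun t ht => ⟨(c₂ t ht).2.1, by rw [(h₂ t ht).2.1, (c₂ t ht).2.2]⟩) (a₁ m).2.1 (a₂ m).2.1,
    BoundedContinuousFunction.ext fun t => ?_⟩
  rw [BoundedContinuousFunction.smul_apply]
  rcases le_total t τ with ht | ht
  · rw [c_of_tr (h₁ t ht).1.2.2.2, (c₁ t ht).2.1, (a₁ m).2.2]; rfl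
  · rw [c_of_tr (h₂ t ht).1.2.2.2, (c₂ t ht).2.1, (a₂ m).2.2]; rfl

/-- the unscaled jet at a point of the path -/
def jv (Γ : Ctr) (j : EJ) (t θ : ℝ) : J2 ℂ := fun k => ev (jw Γ j k) t θ

theorem jev_eq (Γ : Ctr) (j : EJ) (q : R2) : jev zm Γ j q = jv Γ j (tt zm q.1) q.2 := rfl

theorem jv_eq (Γ : Ctr) (j : EJ) (t θ : ℝ) : jv Γ j t θ = ![ev j.y t θ, Γ.io t * ev j.op t θ,
    ev j.yt t θ, Γ.io t * ev j.oq t θ, ev j.pt t θ, ev j.ytt t θ] := by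
  ext k; fin_cases k <;> simp [jv, jw]

theorem jv_sub (Γ : Ctr) (j j' : EJ) (t θ : ℝ) : jv Γ (j - j') t θ = jv Γ j t θ - jv Γ j' t θ := by
  rw [jv_eq, jv_eq, jv_eq]
  ext k
  fin_cases k <;> simp [EJ.y, EJ.yt, EJ.ytt, EJ.y2, EJ.op, EJ.oq, EJ.pt, mul_sub]

theorem ev_of_tr {f f' : WB} (h : tr t f = tr t' f') (θ : ℝ) : ev f t θ = ev f' t' θ := by
  rw [← sumL_tr, h, sumL_tr]

theorem ev_y (h : tr t j.y2 = tr t' j'.y2) (θ : ℝ) : ev j.y t θ = ev j'.y t' θ ∧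
    ev j.yt t θ = ev j'.yt t' θ ∧ ev j.ytt t θ = ev j'.ytt t' θ :=
  ⟨ev_of_tr (by rw [EJ.y, EJ.y, tr_mult symb_y, tr_mult symb_y, h]) θ,
    ev_of_tr (by rw [EJ.yt, EJ.yt, tr_mult symb_yt, tr_mult symb_yt, h]) θ,
    ev_of_tr (by rw [EJ.ytt, EJ.ytt, tr_mult symb_ytt, tr_mult symb_ytt, h]) θ⟩

theorem jv_at (h : EqAt j t j' t') (hi : Γ₁.io t = Γ₂.io t') (θ : ℝ) :
    jv Γ₁ j t θ = jv Γ₂ j' t' θ := by
  obtain ⟨a, b, c⟩ := ev_y h.1 θ
  rw [jv_eq, jv_eq, a, b, c, hi, ev_of_tr h.2.1, ev_of_tr h.2.2.1, ev_of_tr h.2.2.2]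

theorem ev_EE (hz : 1000 ≤ zm) (e : En D) (j : EJ) (t θ : ℝ) : ev (EE (gam zm k n) e j) t θ =
    EP e (zr zm k n t, θ) (jv (ctr (gam zm k n) e) j t θ) := by
  rw [EE_eq hz, ev_EW hz]; rfl

theorem gam_lo (h : k ≤ n) (h' : n ≤ m) (ht : t ≤ tau (n + 1)) :
    zr zm k m t = zr zm k n t ∧ gr k m t = gr k n t := by
  constructor
  · rw [← zr_clp le_rfl h h', ← zr_clp_self (h.trans h'), clp_apply, clp_apply, min_eq_left ht,
      min_eq_left (ht.trans (tau_mono (by omega)))]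
  · refine (Finset.sum_subset (Finset.Icc_subset_Icc_right h') fun i a b => ?_).symm
    simp only [Finset.mem_Icc] at a b
    rw [sm'_lo (ar_lo (ht.trans (tau_mono (by omega)))), mul_zero]

theorem gam_hi (h : k ≤ n) (h' : n ≤ m) (ht : tau n ≤ t) :
    zr zm k m t = zr zm n m t ∧ gr k m t = gr n m t := by
  constructor
  · rw [← zr_clp h h' le_rfl, ← zr_clp_self (h.trans h'), clp_apply, clp_apply]
    have := le_min ht (tau_mono (show n ≤ m + 1 by omega))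
    rw [max_eq_right this, max_eq_right ((tau_mono h).trans this)]
  · refine (Finset.sum_subset (Finset.Icc_subset_Icc_left h) fun i a b => ?_).symm
    simp only [Finset.mem_Icc] at a b
    rw [sm'_hi (ar_hi ((tau_mono (by omega)).trans ht)), mul_zero]

theorem io_gam (hz : 1000 ≤ zm) (e : En D) (t : ℝ) :
    (ctr (gam zm k n) e).io t = ioE e (zr zm k n t : ℝ) := by
  rw [ctr_io (gam_real ..) (gam_T hz _), gam_ze]

theorem io_lo (hz : 1000 ≤ zm) (e : En D) (h : k ≤ n) (h' : n ≤ m) (ht : t ≤ tau (n + 1)) :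
    (ctr (gam zm k m) e).io t = (ctr (gam zm k n) e).io t := by
  rw [io_gam hz, io_gam hz, (gam_lo h h' ht).1]

theorem io_hi (hz : 1000 ≤ zm) (e : En D) (h : k ≤ n) (h' : n ≤ m) (ht : tau n ≤ t) :
    (ctr (gam zm k m) e).io t = (ctr (gam zm n m) e).io t := by
  rw [io_gam hz, io_gam hz, (gam_hi h h' ht).1]

theorem cat_sol (hz : 1000 ≤ zm) (e : En D) (h : k ≤ n) (h' : n + 1 ≤ m)
    (a₁ : (ctr (gam zm k n) e).IsJet j) (a₂ : (ctr (gam zm (n + 1) m) e).IsJet j')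
    (b₁ : EE (gam zm k n) e j = 0) (b₂ : EE (gam zm (n + 1) m) e j' = 0)
    (hm : EqAt j (tau (n + 1)) j' (tau (n + 1))) :
    (ctr (gam zm k m) e).IsJet (Cat (tau (n + 1)) (j, j')) ∧
      EE (gam zm k m) e (Cat (tau (n + 1)) (j, j')) = 0 := by
  refine ⟨jet_glue (fun t ht => ⟨eqAt_lo _ _ ht, ?_, io_lo hz e h (by omega) ht⟩)
    (fun t ht => ⟨eqAt_hi hm ht, ?_, io_hi hz e (by omega) h' ht⟩) a₁ a₂,
    eq_zero_iff_ev.2 fun t θ => ?_⟩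
  · rw [ctr_g, ctr_g, gam_g, gam_g, (gam_lo (zm := zm) h (by omega) ht).2]
  · rw [ctr_g, ctr_g, gam_g, gam_g, (gam_hi (zm := zm) (by omega) h' ht).2]
  rcases le_total t (tau (n + 1)) with ht | ht
  · rw [ev_EE hz, jv_at (eqAt_lo _ _ ht) (io_lo hz e h (by omega) ht),
      (gam_lo h (by omega) ht).1, ← ev_EE hz, b₁, ev_zero]
  · rw [ev_EE hz, jv_at (eqAt_hi hm ht) (io_hi hz e (by omega) h' ht),
      (gam_hi (by omega) h' ht).1, ← ev_EE hz, b₂, ev_zero]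

/-- the coefficient of the second radial derivative -/
def cf : En D → ℝ → ℂ → ℂ → ℂ
  | .inl i, θ, y, yt => ((1 - kaf i θ * y) ^ 2 + (cc i * yt) ^ 2) * (1 - kaf i θ * y)
  | .inr _, _, y, yt => ((1 + y) ^ 2 + yt ^ 2) * (1 + y)

theorem EP_inj (e : En D) {ζ θ : ℝ} (hζ : ζ ≠ 0) {a b c d d' f g : ℂ} (hc : cf e θ a c ≠ 0)
    (h : EP e (ζ, θ) ![a, b, c, d, f, g] = EP e (ζ, θ) ![a, b, c, d', f, g]) : d = d' := by
  have h0 : (ζ : ℂ) ≠ 0 := by exact_mod_cast hζ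
  cases e with
  | inl i =>
    refine mul_left_cancel₀ (mul_ne_zero hc (mul_ne_zero (mul_ne_zero h0 h0)
      (show (4 : ℂ) ≠ 0 by norm_num))) ?_
    simp only [EP, Epol, coneE, Bool.false_eq_true, if_false, Matrix.cons_val] at h
    simp only [cf]
    linear_combination h
  | inr i =>
    refine mul_left_cancel₀ (mul_ne_zero hc (mul_ne_zero (mul_ne_zero h0 two_ne_zero)
      (show (4 : ℂ) ≠ 0 by norm_num))) ?_
    simp only [EP, Epol, cylE, if_true, Matrix.cons_val] at h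
    simp only [cf]
    linear_combination h

theorem io_ne (h : γ.RealP T) (hT : 1000 ≤ T) (e : En D) (t : ℝ) : (ctr γ e).io t ≠ 0 :=
  right_ne_zero_of_mul_eq_one ((ctr_pg h hT e).inv t)

/-- Two solutions with the same slow and fast data at a point have the same jet there. -/
theorem eqAt_of (hz : 1000 ≤ zm) (e : En D) {k' n' : ℕ} (a₁ : (ctr (gam zm k n) e).IsJet j)
    (a₂ : (ctr (gam zm k' n') e).IsJet j') (b₁ : EE (gam zm k n) e j = 0)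
    (b₂ : EE (gam zm k' n') e j' = 0) (hζ : zr zm k n t = zr zm k' n' t')
    (hy : tr t j.y2 = tr t' j'.y2) (hp : tr t ((ctr (gam zm k n) e).piJ (mu e) j) =
      tr t' ((ctr (gam zm k' n') e).piJ (mu e) j'))
    (hc : ∀ θ, cf e θ (ev j.y t θ) (ev j.yt t θ) ≠ 0) : EqAt j t j' t' := by
  have hi : (ctr (gam zm k n) e).io t = (ctr (gam zm k' n') e).io t' := by
    rw [io_gam hz, io_gam hz, hζ]
  have h1 : tr t j.op = tr t' j'.op := by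
    rw [Cv.tr_op (ctr_pg (gam_real ..) (gam_T hz _) e) a₁ (inv_inv _).symm,
      Cv.tr_op (ctr_pg (gam_real ..) (gam_T hz _) e) a₂ (inv_inv _).symm, hi, hy, hp]
  have h2 : tr t j.pt = tr t' j'.pt := W.ext fun m => by
    simp only [c_tr, (a₁ m).2.2, (a₂ m).2.2, BoundedContinuousFunction.smul_apply,
      BoundedContinuousFunction.mul_apply, hi, c_of_tr h1]
  refine ⟨hy, h1, tr_ext fun θ => ?_, h2⟩
  have e1 := ev_EE (k := k) (n := n) hz e j t θ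
  have e2 := ev_EE (k := k') (n := n') hz e j' t' θ
  obtain ⟨a, b, c⟩ := ev_y hy θ
  rw [b₁, jv_eq] at e1
  rw [b₂, jv_eq, ← a, ← b, ← c, ← hi, ← ev_of_tr h1, ← ev_of_tr h2, ← hζ] at e2
  have h0 : zr zm k n t ≠ 0 := by
    have := (gam_real zm k n).T_le t
    rw [gam_ze, Complex.ofReal_re] at this
    linarith [gam_T hz k]
  exact mul_left_cancel₀ (io_ne (gam_real ..) (gam_T hz _) e t)
    (EP_inj e h0 (hc θ) (by rw [← e1, ← e2, ev_zero, ev_zero]))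

/-! ### Transfer between real paths -/

theorem eqAt_cmp {φ : ℝ → ℝ} (h : γ.RealP T) (hT : 1000 ≤ T) (h' : γ'.Ok) (hs : Sub φ γ γ')
    (j : EJ) (t : ℝ) : EqAt (j.cmp φ) t j (φ (cl t)) := by
  have a := (trStmt φ γ γ' 1 one_pos h.ok h' hs h.dir (h.one_le (by linarith))).1
  exact ⟨a _ t, a _ t, a _ t, a _ t⟩

theorem io_cmp {φ : ℝ → ℝ} (h : γ.RealP T) (hT : 1000 ≤ T) (h' : γ'.RealP T') (hT' : 1000 ≤ T')
    (hs : Sub φ γ γ') (e : En D) (t : ℝ) : (ctr γ' e).io t = (ctr γ e).io (φ (cl t)) := by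
  rw [ctr_io h hT, ctr_io h' hT', sub_ze hs h'.ok]

theorem jv_cmp {φ : ℝ → ℝ} (h : γ.RealP T) (hT : 1000 ≤ T) (h' : γ'.RealP T') (hT' : 1000 ≤ T')
    (hs : Sub φ γ γ') (e : En D) (j : EJ) (t θ : ℝ) :
    jv (ctr γ' e) (j.cmp φ) t θ = jv (ctr γ e) j (φ (cl t)) θ :=
  jv_at (eqAt_cmp h hT h'.ok hs j t) (io_cmp h hT h' hT' hs e t) θ

theorem jet_cmp {φ : ℝ → ℝ} (h : γ.RealP T) (hT : 1000 ≤ T) (h' : γ'.Ok) (hs : Sub φ γ γ')
    (e : En D) (hj : (ctr γ e).IsJet j) : (ctr γ' e).IsJet (j.cmp φ) ∧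
      EE γ' e (j.cmp φ) = cmpW φ (EE γ e j) ∧
      ∀ t, tr t ((ctr γ' e).piJ (mu e) (j.cmp φ)) = tr (φ (cl t)) ((ctr γ e).piJ (mu e) j) := by
  obtain ⟨a, -, -, b, c⟩ := trStmt φ γ γ' (1 / 2) one_half_pos h.ok h' hs
    (fun t => by linarith [h.dir t, norm_nonneg (γ.g t)]) (h.one_le (by linarith))
  cases e with
  | inl i =>
    obtain ⟨c1, c2, c3, -⟩ := c T (cc i) (ka i) (kd i) j (by linarith) h hj
    exact ⟨c1, c2, fun t => (congrArg (tr t) c3).trans (a _ t)⟩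
  | inr i =>
    obtain ⟨c1, c2, c3, -⟩ := b 0 T T j (by linarith) (admP0 h hT) hj
    exact ⟨c1, c2, fun t => (congrArg (tr t) c3).trans (a _ t)⟩

end Vale.Agent.P218N.Ext
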