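import Vale.Agent.P218N.Ext.Cat
import Vale.Agent.P218N.Ra.ExtS

/-! The far jets in the slope zero: the interface between the two halves of the block EXT. -/

open Set Filter Topology Metric

noncomputable section

namespace Vale.Agent.P218N.Ext

open Vale.Agent.P218N.End Vale.Agent.P218N.J Vale.Agent.P218N.Core Vale.Agent.P218N.H
  Vale.Agent.P218F

variable {w : E3 → ℝ} {D : EndData w} {J : Type} [Fintype J] [DecidableEq J]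

/-- the Gaussian area of the part `[t₀, t₁]` of an end, in the slope zero -/
def FI (γ : Path) : En D → EJ → ℝ → ℝ → ℂ
  | .inl i, j, t₀, t₁ => γ.FKI (cc i) (ka i) j t₀ t₁
  | .inr _, j, t₀, t₁ => γ.FCI 0 j t₀ t₁

/-- the size of a jet on an end at a point of the path -/
def pN (γ : Path) (e : En D) (j : EJ) (t : ℝ) : ℝ := ptN (ctr γ e) (mu e) j t

/-- the jet `jf` along the segment from `T = TT zm n` to `R` continues the core jet `j₁` -/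
structure Cont (zm : ℝ) (n : ℕ) (R : ℝ) (e : En D) (j₁ jf : EJ) : Prop where
  jet : (ctr (sg (TT zm n) R) e).IsJet jf
  sol : EE (sg (TT zm n) R) e jf = 0
  my : tr 0 jf.y2 = tr 1 j₁.y2
  mp : tr 0 ((ctr (sg (TT zm n) R) e).piJ (mu e) jf) = piT (gam zm 4 n) e j₁
  nd : ∀ θ, cf e θ (ev jf.y 0 θ) (ev jf.yt 0 θ) ≠ 0

/-- The truncated solutions as jets: `jf R ξ e` lives on the segment from `T` to `R`. -/
structure Far (jE : En D → Path → EJ) (zm : ℝ) (n : ℕ) (r : ℝ) (jc : Par D J → En D → EJ)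
    (lm : Par D J → J → ℂ) (Fc : Par D J → ℂ) (I : Finset J) (c r' κ' C : ℝ) (R0 : ℕ)
    (yf : (J → ℂ) → J → ℂ) (cf : (J → ℂ) → Fin D.b → ℂ × ℂ) (om : ℕ → (J → ℂ) → En D → WD)
    (jf : ℕ → (J → ℂ) → En D → EJ) (F : ℕ → (J → ℂ) → ℂ) : Prop where
  c0 : 0 < c
  r0 : 0 < r'
  κ0 : 0 < κ'
  C0 : 0 ≤ C
  R01 : 8 * TT zm n ≤ R0
  yhol : DifferentiableOn ℂ yf (ball 0 r')
  chol : DifferentiableOn ℂ cf (ball 0 r')
  y0 : yf 0 = 0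
  c00 : cf 0 = 0
  yinj : ∀ b : J → ℝ, (∀ k, (fderiv ℂ yf 0 (re2c b) k).re = 0) → b = 0
  ohol : ∀ R, R0 ≤ R → DifferentiableOn ℂ (om R) (Dom I c r' R)
  xb : ∀ R, R0 ≤ R → ∀ ξ ∈ Dom I c r' R, ‖(yf ξ, cf ξ, om R ξ)‖ ≤ r / 4
  ostep : ∀ R, R0 ≤ R → ∀ ξ ∈ Dom I c r' (R + 1),
    ‖om (R + 1) ξ - om R ξ‖ ≤ C * Real.exp (-(κ' * R))
  ozero : ∀ R, R0 ≤ R → ‖om R 0‖ ≤ C * Real.exp (-(κ' * R))
  real : ∀ R, R0 ≤ R → ∀ x, re2c x ∈ Dom I c r' R → Core.cjP (yf (re2c x), cf (re2c x),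
    om R (re2c x)) = (yf (re2c x), cf (re2c x), om R (re2c x))
  cont : ∀ R, R0 ≤ R → ∀ ξ ∈ Dom I c r' R, ∀ e,
    Cont zm n R e (jc (yf ξ, cf ξ, om R ξ) e) (jf R ξ e)
  fhol : ∀ R, R0 ≤ R → DifferentiableOn ℂ (jf R) (Dom I c r' R)
  fb : ∀ R, R0 ≤ R → ∀ ξ ∈ Dom I c r' R, ∀ e, ∀ t ∈ Icc (0 : ℝ) 1,
    ((sg (TT zm n) R).ze t).re ≤ R / 2 →
      pN (sg (TT zm n) R) e (jf R ξ e - jE e (sg (TT zm n) R)) t ≤ C
  fstep : ∀ R, R0 ≤ R → ∀ ξ ∈ Dom I c r' (R + 1), ∀ e, ∃ φ,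
    Sub φ (sg (TT zm n) (R + 1 : ℕ)) (sg (TT zm n) R) ∧ ∀ t ∈ Icc (0 : ℝ) 1,
      ((sg (TT zm n) R).ze t).re ≤ R / 2 → pN (sg (TT zm n) R) e
        ((jf (R + 1) ξ e).cmp φ - jf R ξ e) t ≤ C * Real.exp (-(κ' * R))
  fzero : ∀ R, R0 ≤ R → ∀ e, ∀ t ∈ Icc (0 : ℝ) 1, ((sg (TT zm n) R).ze t).re ≤ R / 2 →
    pN (sg (TT zm n) R) e (jf R 0 e - jE e (sg (TT zm n) R)) t ≤ C * Real.exp (-(κ' * R))
  freal : ∀ R, R0 ≤ R → ∀ x, re2c x ∈ Dom I c r' R → ∀ e,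
    (jf R (re2c x) e).cj = jf R (re2c x) e
  area : ∀ R, R0 ≤ R → ∀ x, re2c x ∈ Dom I c r' R → ∀ t ∈ Icc (0 : ℝ) 1,
    ((sg (TT zm n) R).ze t).re = R / 8 → ‖Fc (yf (re2c x), cf (re2c x), om R (re2c x)) +
      ∑ e, FI (sg (TT zm n) R) e (jf R (re2c x) e) 0 t - F R (re2c x)‖ ≤ C * Real.exp (-(κ' * R))
  dF : ∀ R, R0 ≤ R → ∀ x, re2c x ∈ Dom I (c / 2) (r' / 2) R → ‖fderiv ℂ (F R) (re2c x)‖ ≤
    C * (‖lm (yf (re2c x), cf (re2c x), om R (re2c x))‖ + Real.exp (-(κ' * R)))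
  concl : Concl I c R0 F

/-- from jets to functions -/
def FunStmt : Prop := ∀ (w : E3 → ℝ) (D : EndData w) (J κ : Type) [Fintype J] [DecidableEq J]
  (jE : En D → Path → EJ) (dS πS : En D → ℝ → WD) (Z C₁ : ℝ) (G : Geo D) (zm : ℝ)
  (ψ : J → E3 → ℝ) (P : κ → Patch (SS w)) (O : κ → Set R2) (n : ℕ) (r C' : ℝ) u jc lm Fc
  I c r' κ' C R0 yf cf om jf F, RealEnds D jE dS πS Z C₁ → 1000 ≤ zm → Z ≤ zm → 4 ≤ n →
  CoreBox G zm ψ P O (fun e => Res 4 n (jE e (gam zm 0 n))) n r C' u jc lm Fc →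
  Far jE zm n r jc lm Fc I c r' κ' C R0 yf cf om jf F →
  ∃ C₂ v, Ra.Ext zm n r jc lm Fc I c r' κ' C₂ R0 yf cf om v F

end Vale.Agent.P218N.Ext
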