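import Vale.Agent.P218N.Ext.FunA
import Vale.Agent.P218N.End.Hol
import Vale.Agent.P218N.D6.Ser0

/-! From jets to functions: the truncated solutions as functions of `(ζ, θ)`. -/

open Set Filter Topology Metric

noncomputable section

namespace Vale.Agent.P218N.Ext

open Vale.Agent.P218N.End Vale.Agent.P218N.J Vale.Agent.P218N.Core Vale.Agent.P218N.H
  Vale.Agent.P218N.Core.PathP Vale.Agent.P218N.End.RE Vale.Agent.P218N.Ra Vale.Agent.P218F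

variable {w : E3 → ℝ} {D : EndData w} {zm R t : ℝ} {n : ℕ} {j₁ jf : EJ} {e : En D}
  {jE : En D → Path → EJ} {dS πS : En D → ℝ → WD} {Z C₁ : ℝ} {q : R2}

/-- the deviation of the height from the height of the shrinker -/
def vF (zm : ℝ) (n : ℕ) (R : ℝ) (e : En D) (j₁ jf : EJ) (q : R2) : ℂ :=
  ev (JJ zm n R (j₁, jf)).y (tt zm q.1) q.2 - yS e q

/-- the standing hypotheses -/
structure Hy (jE : En D → Path → EJ) (zm : ℝ) (n : ℕ) (R : ℝ) (e : En D) (j₁ jf : EJ) : Prop where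
  hE : ∃ dS πS Z C, RealEnds D jE dS πS Z C ∧ Z ≤ zm
  hz : 1000 ≤ zm
  hn : 4 ≤ n
  hR : 8 * TT zm n ≤ R
  jet : (ctr (gam zm 4 n) e).IsJet j₁
  sol : EE (gam zm 4 n) e j₁ = 0
  cont : Cont zm n R e j₁ jf

namespace Hy
variable (h : Hy jE zm n R e j₁ jf)
include h

theorem hR' : TT zm n + 2 ≤ R ∧ R / 2 < R - 1 := by
  constructor <;> linarith [h.hR, TT_ge h.hz n]

theorem mem (hq : q.1 ∈ Ioo (zm + 4) (R / 2)) : q.1 ∈ Ioo (zm + (4 : ℕ)) (TT zm (mR zm R)) :=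
  ⟨by exact_mod_cast hq.1, (hq.2.trans h.hR'.2).trans_le (mR_spec h.hR'.1).2.1⟩

theorem c2 (hq : q.1 ∈ Ioo (zm + 4) (R / 2)) : ContDiffAt ℝ 2 (vF zm n R e j₁ jf) q ∧
    jy e q + jet2 (vF zm n R e j₁ jf) q =
      jv (ctr (gam zm 4 (mR zm R)) e) (JJ zm n R (j₁, jf)) (tt zm q.1) q.2 := by
  obtain ⟨_, _, _, _, hE, hZ⟩ := h.hE
  obtain ⟨a, b⟩ := (pathStmt w D zm h.hz).c2 4 _ e _ q
    (JJ_sol h.hz h.hn h.hR'.1 h.jet h.sol h.cont).1 (h.mem hq)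
  have c := (jy_eq (e := e) hE h.hz hZ (h.mem hq)).1
  refine ⟨a.sub c, ?_⟩
  refine (jet2_add c (a.sub c)).symm.trans ?_
  simpa only [add_sub_cancel, jev_eq] using b

theorem eq (hq : q.1 ∈ Ioo (zm + 4) (R / 2)) :
    EP e q (jy e q + jet2 (vF zm n R e j₁ jf) q) = 0 := by
  have a := ev_EE (k := 4) (n := mR zm R) h.hz e (JJ zm n R (j₁, jf)) (tt zm q.1) q.2
  rw [(JJ_sol h.hz h.hn h.hR'.1 h.jet h.sol h.cont).2, ev_zero,
    zr_tt (le_of_mem (h.mem hq)) (Ioo_subset_Icc_self (h.mem hq))] at a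
  rw [(h.c2 hq).2, ← a]

theorem lo (hq : q.1 ∈ Ioo (zm + 4) (R / 2)) (hT : q.1 ≤ TT zm n) :
    jy e q + jet2 (vF zm n R e j₁ jf) q = jv (ctr (gam zm 4 n) e) j₁ (tt zm q.1) q.2 := by
  rw [(h.c2 hq).2, jv_lo h.hz h.hn h.hR'.1 (tt_mem h.hn ⟨(h.mem hq).1.le, hT⟩).2]

theorem lo' (hq : q.1 ∈ Ioo (zm + 4) (R / 2)) (hT : q.1 ≤ TT zm n) : jet2 (vF zm n R e j₁ jf) q =
    jv (ctr (gam zm 4 n) e) (j₁ - Res 4 n (jE e (gam zm 0 n))) (tt zm q.1) q.2 := by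
  obtain ⟨_, _, _, _, hE, hZ⟩ := h.hE
  rw [jv_sub, ← h.lo hq hT, ← jy_lo hE h.hz hZ h.hn (by linarith [(mR_spec h.hR'.1).1])
    (h.mem hq) hT, add_sub_cancel_left]

theorem mem' (ht : ((sg (TT zm n) R).ze t).re < R / 2) :
    ((sg (TT zm n) R).ze t).re ∈ Ioo (zm + 4) (R / 2) := by
  have h4 : (4 : ℝ) ≤ n := by exact_mod_cast h.hn
  have h3 : TT zm n = zm + n + 1 := rfl
  exact ⟨by linarith [(sgR h.hR'.1).T_le t], ht⟩

theorem hi (ht : t ∈ Icc (0 : ℝ) 1) (hζ : ((sg (TT zm n) R).ze t).re < R / 2) (θ : ℝ) :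
    jy e (((sg (TT zm n) R).ze t).re, θ) + jet2 (vF zm n R e j₁ jf)
      (((sg (TT zm n) R).ze t).re, θ) = jv (ctr (sg (TT zm n) R) e) jf t θ := by
  rw [(h.c2 (h.mem' hζ)).2, jv_hi h.hz h.hn h.hR'.1 h.jet h.sol h.cont ht (hζ.trans h.hR'.2).le]

theorem hi' (ht : t ∈ Icc (0 : ℝ) 1) (hζ : ((sg (TT zm n) R).ze t).re < R / 2) (θ : ℝ) :
    jet2 (vF zm n R e j₁ jf) (((sg (TT zm n) R).ze t).re, θ) =
      jv (ctr (sg (TT zm n) R) e) (jf - jE e (sg (TT zm n) R)) t θ := by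
  obtain ⟨_, _, _, _, hE, hZ⟩ := h.hE
  rw [jv_sub, ← h.hi ht hζ, ← jy_hi hE h.hz hZ h.hn h.hR'.1 ht (hζ.trans h.hR'.2),
    add_sub_cancel_left]

theorem split (hq : q.1 ∈ Ioo (zm + 4) (R / 2)) :
    (q.1 ≤ TT zm n ∧ ((gam zm 4 n).ze (tt zm q.1)).re = q.1) ∨
      ∃ t ∈ Icc (0 : ℝ) 1, ((sg (TT zm n) R).ze t).re = q.1 := by
  rcases le_total q.1 (TT zm n) with a | a
  · exact .inl ⟨a, by rw [gam_ze, Complex.ofReal_re, zr_tt h.hn ⟨(h.mem hq).1.le, a⟩]⟩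
  · exact .inr (sg_ex ⟨a, by linarith [hq.2, h.hR'.2]⟩)

theorem wjv (hq : q.1 ∈ Ioo (zm + 4) (R / 2)) {B : ℝ}
    (h1 : TT zm n * ‖j₁ - Res 4 n (jE e (gam zm 0 n))‖ ≤ B)
    (h2 : ∀ t ∈ Icc (0 : ℝ) 1, ((sg (TT zm n) R).ze t).re ≤ R / 2 →
      Cw e * pN (sg (TT zm n) R) e (jf - jE e (sg (TT zm n) R)) t ≤ B) :
    WJ e q.1 (jet2 (vF zm n R e j₁ jf) q) B := by
  obtain ⟨_, _, _, _, hE, hZ⟩ := h.hE
  rcases h.split hq with ⟨a, b⟩ | ⟨t, ht, a⟩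
  · have := wj_core (e := e) (gam_real ..) (gam_T h.hz _) q.2 (b.trans_le a) h1
    rwa [b, ← h.lo' hq a] at this
  · obtain ⟨ζ, θ⟩ := q
    obtain rfl : _ = ζ := a
    rw [h.hi' ht hq.2]
    have h3 : TT zm n = zm + n + 1 := rfl
    exact wj (sgR h.hR'.1) (TT_ge h.hz n) (h.cont.jet.sub (jE_jet hE (sgR h.hR'.1)
      (by linarith [n.cast_nonneg (α := ℝ)]) e).1) θ (h2 t ht hq.2.le)

theorem step {R' : ℝ} {j₁' jf' : EJ} (h' : Hy jE zm n R' e j₁' jf') (hR : R ≤ R')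
    (hq : q.1 ∈ Ioo (zm + 4) (R / 2)) {B : ℝ} (h1 : TT zm n * ‖j₁' - j₁‖ ≤ B) {φ : ℝ → ℝ}
    (hs : Sub φ (sg (TT zm n) R') (sg (TT zm n) R))
    (h2 : ∀ t ∈ Icc (0 : ℝ) 1, ((sg (TT zm n) R).ze t).re ≤ R / 2 →
      Cw e * pN (sg (TT zm n) R) e (jf'.cmp φ - jf) t ≤ B) :
    WJ e q.1 (jet2 (vF zm n R' e j₁' jf') q - jet2 (vF zm n R e j₁ jf) q) B := by
  have hq' : q.1 ∈ Ioo (zm + 4) (R' / 2) := ⟨hq.1, by linarith [hq.2]⟩
  rw [← add_sub_add_left_eq_sub _ _ (jy e q)]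
  rcases h.split hq with ⟨a, b⟩ | ⟨t, ht, a⟩
  · have := wj_core (e := e) (gam_real ..) (gam_T h.hz _) q.2 (b.trans_le a) h1
    rwa [b, jv_sub, ← h.lo hq a, ← h'.lo hq' a] at this
  · obtain ⟨ζ, θ⟩ := q
    obtain rfl : _ = ζ := a
    have e1 := h'.hi (hs.maps ht) (by rw [← hs.eq t ht]; exact hq'.2) θ
    rw [← hs.eq t ht, ← cl_of_mem ht, ← jv_cmp (sgR h'.hR'.1) (TT_ge h.hz n) (sgR h.hR'.1)
      (TT_ge h.hz n) hs, cl_of_mem ht] at e1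
    rw [h.hi ht hq.2, e1, ← jv_sub]
    exact wj (sgR h.hR'.1) (TT_ge h.hz n) ((jet_cmp (sgR h'.hR'.1) (TT_ge h.hz n)
      (sgR h.hR'.1).ok hs e h'.cont.jet).1.sub h.cont.jet) θ (h2 t ht hq.2.le)

theorem area (ht : t ∈ Icc (0 : ℝ) 1) (hζ : ((sg (TT zm n) R).ze t).re < R / 2) :
    ∫ ζ in TT zm n..((sg (TT zm n) R).ze t).re, ∫ θ in (0 : ℝ)..2 * Real.pi,
      lagE e (ζ, θ) (jy e (ζ, θ) + jet2 (vF zm n R e j₁ jf) (ζ, θ)) =
      FI (sg (TT zm n) R) e jf 0 t := by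
  have hγ := sgR h.hR'.1
  have hd : ∀ s, HasDerivAt (fun s => ((sg (TT zm n) R).ze s).re) ((sg (TT zm n) R).g s).re s :=
    fun s => Complex.reCLM.hasFDerivAt.comp_hasDerivAt s (hγ.ok.der s)
  have a := intervalIntegral.integral_deriv_smul_comp_of_deriv_nonneg (a := 0) (b := t)
    (g := fun ζ => ∫ θ in (0 : ℝ)..2 * Real.pi,
      lagE e (ζ, θ) (jy e (ζ, θ) + jet2 (vF zm n R e j₁ jf) (ζ, θ)))
    (fun s _ => (hd s).continuousAt.continuousWithinAt) (fun s _ => hd s) fun s _ => hγ.re s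
  rw [hγ.st, Complex.ofReal_re] at a
  rw [← a]
  have key : ∀ s ∈ uIcc 0 t, ∀ θ, lagE e (((sg (TT zm n) R).ze s).re, θ) (jy e
      (((sg (TT zm n) R).ze s).re, θ) + jet2 (vF zm n R e j₁ jf) (((sg (TT zm n) R).ze s).re, θ)) =
      lagE e (((sg (TT zm n) R).ze s).re, θ) (jv (ctr (sg (TT zm n) R) e) jf s θ) :=
    fun s hs θ => by
      rw [uIcc_of_le ht.1] at hs
      rw [h.hi ⟨hs.1, hs.2.trans ht.2⟩ ((hγ.mono hs.2).trans_lt hζ)]
  have hg : ∀ s, ((((sg (TT zm n) R).g s).re : ℝ) : ℂ) = (sg (TT zm n) R).g s := fun s =>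
    Complex.ext rfl (by simp [hγ.im s])
  have h0 : ∀ s, (sg (TT zm n) R).ze s ≠ 0 := fun s => (cv0 hγ (TT_ge h.hz n)).ze_ne s
  cases e with
  | inl i =>
    refine intervalIntegral.integral_congr fun s hs => ?_
    simp only [Function.comp_apply, key s hs, Complex.real_smul, hg]
    simp only [lagE, jv_eq, ctr_io hγ (TT_ge h.hz n), ioE, ← hγ.ze_eq, sumL_ka, Matrix.cons_val]
    congr 3 with θ
    congr 1
    field_simp [h0 s]
  | inr i =>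
    refine intervalIntegral.integral_congr fun s hs => ?_
    simp only [Function.comp_apply, key s hs, Complex.real_smul, hg]
    simp only [lagE, jv_eq, ctr_io hγ (TT_ge h.hz n), ioE, ← hγ.ze_eq, Matrix.cons_val]
    congr 3 with θ
    congr 1
    field_simp [h0 s]

end Hy

theorem jv_hol {X : Type} [NormedAddCommGroup X] [NormedSpace ℂ X] {U : Set X} {j : X → EJ}
    (hj : DifferentiableOn ℂ j U) (Γ : Ctr) (t θ : ℝ) :
    DifferentiableOn ℂ (fun x => jv Γ (j x) t θ) U := by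
  have a : ∀ f : X → WB, DifferentiableOn ℂ f U → DifferentiableOn ℂ (fun x => ev (f x) t θ) U :=
    fun f hf => by
      simp only [← sumL_tr]
      fun_prop
  refine differentiableOn_pi.2 fun k => a _ ?_
  fin_cases k <;> simp only [jw, EJ.y, EJ.yt, EJ.ytt, EJ.y2, EJ.op, EJ.oq, EJ.pt, Ctr.jP, Ctr.jQ,
    Fin.reduceFinMk, Matrix.cons_val] <;> fun_prop

theorem vhol {X : Type} [NormedAddCommGroup X] [NormedSpace ℂ X] {U : Set X} {j₁ jf : X → EJ}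
    (h1 : DifferentiableOn ℂ j₁ U) (h2 : DifferentiableOn ℂ jf U)
    (H : ∀ ξ ∈ U, Hy jE zm n R e (j₁ ξ) (jf ξ)) (hq : q.1 ∈ Ioo (zm + 4) (R / 2)) :
    DifferentiableOn ℂ (fun ξ => jet2 (vF zm n R e (j₁ ξ) (jf ξ)) q) U :=
  ((jv_hol (j := fun ξ => JJ zm n R (j₁ ξ, jf ξ))
    ((JJ zm n R).differentiable.comp_differentiableOn (h1.prodMk h2)) _ _ _).sub_const
      (jy e q)).congr fun ξ hξ => eq_sub_of_add_eq' ((H ξ hξ).c2 hq).2

theorem vreal (h : Hy jE zm n R e j₁ jf) (h1 : j₁.cj = j₁) (h2 : jf.cj = jf) (q : R2) :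
    (vF zm n R e j₁ jf q).im = 0 := by
  have h3 := JJ_cj h.hz h.hR'.1 j₁ jf
  rw [h1, h2] at h3
  rw [vF, Complex.sub_im, Complex.ofReal_im, sub_zero]
  exact isRl_iff_ev.1 (EJ.IsRl.y h3.symm) _ _

theorem vper (zm : ℝ) (n : ℕ) (R : ℝ) (e : En D) (j₁ jf : EJ) (ζ θ : ℝ) :
    vF zm n R e j₁ jf (ζ, θ + 2 * Real.pi) = vF zm n R e j₁ jf (ζ, θ) := by
  have hp : yS e (ζ, θ + 2 * Real.pi) = yS e (ζ, θ) := by
    cases e with
    | inl i => exact (D.hdec i).per _ _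
    | inr i => exact (D.vdec i).per _ _
  simp only [vF, ev_add_two_pi, hp]

theorem vcore (hn : 4 ≤ n) (hq : q.1 ∈ Icc (zm + 4) (TT zm n)) :
    vF zm n R e j₁ jf q = ev j₁.y (tt zm q.1) q.2 - yS e q := by
  rw [vF, JJ_apply, (ev_y (eqAt_lo _ _ (tt_mem hn ⟨by exact_mod_cast hq.1, hq.2⟩).2).1 _).1]

theorem lipJ {X Y : Type} [NormedAddCommGroup X] [NormedSpace ℂ X] [NormedAddCommGroup Y]
    [NormedSpace ℂ Y] {f : X → Y} {r C : ℝ} {y : Y} (hr : 0 < r) (hC : 0 < C)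
    (hd : DifferentiableOn ℂ f (ball 0 r)) (hb : ∀ x ∈ ball (0 : X) r, ‖f x - y‖ ≤ C * ‖x‖)
    {x x' : X} (hx : ‖x‖ ≤ r / 4) (hx' : ‖x'‖ ≤ r / 4) : ‖f x' - f x‖ ≤ 3 * C * ‖x' - x‖ := by
  have hs : ball x (3 / 4 * r) ⊆ ball 0 r := ball_subset_ball' (by
    rw [dist_zero_right]; linarith)
  have gb : ∀ z ∈ ball (0 : X) r, ‖f z - y‖ ≤ C * r := fun z hz =>
    (hb z hz).trans (by gcongr; exact (mem_ball_zero_iff.1 hz).le)
  have h1 := Complex.dist_le_div_mul_dist_of_mapsTo_ball (R₂ := 2 * (C * r))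
    (hd.mono hs) (fun z hz => mem_closedBall_iff_norm.2 (by
      rw [← sub_sub_sub_cancel_right _ _ y]
      exact (norm_sub_le_of_le (gb z (hs hz)) (gb x (hs (mem_ball_self (by positivity))))).trans
        (by linarith)))
    (z := x') (mem_ball_iff_norm.2 ((norm_sub_le_of_le hx' hx).trans_lt (by linarith)))
  rw [dist_eq_norm, dist_eq_norm] at h1
  refine h1.trans (mul_le_mul_of_nonneg_right ?_ (norm_nonneg _))
  rw [div_le_iff₀ (by positivity)]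
  nlinarith [mul_pos hC hr]

theorem consts {T C C' r : ℝ} (hT : 0 ≤ T) (hC : 0 ≤ C) (hC' : 0 < C') (hr : 0 < r) :
    ∃ C₂, 0 ≤ C₂ ∧ (∀ x s : ℝ, 0 ≤ s → x ≤ C * s → x ≤ C₂ * s) ∧
      (∀ (e : En D) (x s : ℝ), 0 ≤ s → x ≤ C * s → Cw e * x ≤ C₂ * s) ∧
      ∀ (y y' : En D → EJ) (x s : ℝ) (e : En D), 0 ≤ s → ‖y - y'‖ ≤ 3 * C' * x →
        (x ≤ C * s ∨ x ≤ r / 4 ∧ s = 1) → T * ‖y e - y' e‖ ≤ C₂ * s := by
  obtain ⟨K, hK⟩ := Finite.exists_le (Cw (D := D))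
  have A0 : 0 ≤ T * (3 * C') * (C + r) := by positivity
  have K0 : 0 ≤ max K 0 * C := by positivity
  refine ⟨C + T * (3 * C') * (C + r) + max K 0 * C, by positivity,
    fun x s hs hx => hx.trans (by gcongr; linarith), fun e x s hs hx => ?_,
    fun y y' x s e hs h1 h2 => ?_⟩
  · have h1 : Cw e * x ≤ max K 0 * (C * s) := (mul_le_mul_of_nonneg_left hx
      (by linarith [one_le_Cw e])).trans (by gcongr; exact (hK e).trans (le_max_left _ _))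
    nlinarith [mul_nonneg hC hs, mul_nonneg A0 hs]
  · have h4 : x ≤ (C + r) * s := by
      rcases h2 with h2 | ⟨h2, rfl⟩
      · nlinarith
      · linarith
    have h3 : T * ‖y e - y' e‖ ≤ T * (3 * C' * ((C + r) * s)) := by
      gcongr
      exact (norm_le_pi_norm (y - y') e).trans (h1.trans (by gcongr))
    nlinarith [mul_nonneg hC hs, mul_nonneg K0 hs]

theorem funStmt : FunStmt := by
  intro w D J κ _ _ jE dS πS Z C₁ G zm ψ P O n r C' u jc lm Fc I c r' κ' C R0 yf cf om jf F hE hz hZ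
    hn box f
  have hr := box.r_pos
  have hC' := box.C_pos
  have hT := TT_ge hz n
  have hR : ∀ R, R0 ≤ R → 8 * TT zm n ≤ (R : ℝ) := fun R h => f.R01.trans (by exact_mod_cast h)
  have R1 : ∀ R, R0 ≤ R → 1 ≤ R := fun R h => by
    have : (1 : ℝ) ≤ R := by linarith [hR R h]
    exact_mod_cast this
  have mb : ∀ x : Core.Par D J, ‖x‖ ≤ r / 4 → x ∈ ball 0 r := fun x hx =>
    mem_ball_zero_iff.2 (by linarith)
  have H : ∀ R, R0 ≤ R → ∀ ξ ∈ Dom I c r' R, ∀ e,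
      Hy jE zm n R e (jc (yf ξ, cf ξ, om R ξ) e) (jf R ξ e) := fun R h ξ hξ e =>
    ⟨⟨_, _, _, _, hE, hZ⟩, hz, hn, hR R h, box.jet _ (mb _ (f.xb R h ξ hξ)) e,
      box.sol _ (mb _ (f.xb R h ξ hξ)) e, f.cont R h ξ hξ e⟩
  have jb : ∀ x : Core.Par D J, ‖x‖ ≤ r / 4 →
      ‖jc x - fun e => Res 4 n (jE e (gam zm 0 n))‖ ≤ 3 * C' * ‖x‖ := fun x hx =>
    (box.jb _ (mb _ hx)).trans (mul_le_mul_of_nonneg_right (by linarith) (norm_nonneg _))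
  have z0 : ∀ R, R0 ≤ R → (0 : J → ℂ) ∈ Dom I c r' R := fun R h =>
    ⟨by simpa using f.r0, fun i _ => by simpa using div_pos f.c0 (by exact_mod_cast R1 R h)⟩
  obtain ⟨C₂, C0, up, far, core⟩ := consts (D := D) (T := TT zm n) (by linarith) f.C0 hC' hr
  have ex := fun R : ℕ => (Real.exp_pos (-(κ' * R))).le
  refine ⟨C₂, fun R ξ e => vF zm n R e (jc (yf ξ, cf ξ, om R ξ) e) (jf R ξ e),
    f.c0, f.r0, f.κ0, C0, f.R01, f.yhol, f.chol, f.y0, f.c00, f.yinj, f.ohol, f.xb,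
    fun R h ξ hξ => up _ _ (ex R) (f.ostep R h ξ hξ), fun R h => up _ _ (ex R) (f.ozero R h),
    f.real, fun R h ξ hξ e q hq => vcore hn hq, fun R ξ e ζ θ => vper ..,
    fun R h ξ hξ e q hq => ((H R h ξ hξ e).c2 hq).1,
    fun R h e q hq => ?_, fun R h ξ hξ e q hq => ?_, fun R h ξ hξ e q hq => ?_,
    fun R h e q hq => ?_, fun R h x hx e q hq => ?_, fun R h ξ hξ e q hq => (H R h ξ hξ e).eq hq,
    fun R h x hx => ?_, fun R h x hx => up _ _ (by positivity) (f.dF R h x hx), f.concl⟩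
  · have h1 : DifferentiableOn ℂ (fun ξ => jc (yf ξ, cf ξ, om R ξ)) (Dom I c r' R) :=
      box.jhol.comp ((f.yhol.mono fun _ a => mem_ball_zero_iff.2 a.1).prodMk
        ((f.chol.mono fun _ a => mem_ball_zero_iff.2 a.1).prodMk (f.ohol R h)))
        fun ξ hξ => mb _ (f.xb R h ξ hξ)
    exact vhol (differentiableOn_pi.1 h1 e) (differentiableOn_pi.1 (f.fhol R h) e)
      (fun ξ hξ => H R h ξ hξ e) hq
  · have h1 := core _ _ _ _ e zero_le_one (jb _ (f.xb R h ξ hξ)) (.inr ⟨f.xb R h ξ hξ, rfl⟩)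
    rw [mul_one] at h1
    exact (H R h ξ hξ e).wjv hq h1 fun t ht a => (far _ _ _ zero_le_one
      ((f.fb R h ξ hξ e t ht a).trans_eq (mul_one _).symm)).trans_eq (mul_one _)
  · have hξ' := D6.Ser.dom_succ f.c0 (R1 R h) hξ
    obtain ⟨φ, hs, hb⟩ := f.fstep R h ξ hξ e
    have h1 := core _ _ _ _ e (ex R) (lipJ hr hC' box.jhol box.jb (f.xb R h ξ hξ')
      (f.xb _ (h.trans R.le_succ) ξ hξ)) (.inl (by simpa using f.ostep R h ξ hξ))
    exact (H R h ξ hξ' e).step (H _ (h.trans R.le_succ) ξ hξ e) (by push_cast; linarith) hq h1 hs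
      fun t ht a => far _ _ _ (ex R) (hb t ht a)
  · have h1 := core _ _ _ _ e (ex R) (jb _ (f.xb R h 0 (z0 R h)))
      (.inl (by simpa [f.y0, f.c00] using f.ozero R h))
    exact (H R h 0 (z0 R h) e).wjv hq h1 fun t ht a => far _ _ _ (ex R) (f.fzero R h e t ht a)
  · have h1 := (box.cj _ (mb _ (f.xb R h _ hx))).1 e
    rw [f.real R h x hx] at h1
    exact vreal (H R h _ hx e) h1.symm (f.freal R h x hx e) q
  · obtain ⟨t, ht, a⟩ := sg_ex (T := TT zm n) (R := R) (x := R / 8)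
      ⟨by linarith [hR R h], by linarith [hR R h]⟩
    rw [← a, Finset.sum_congr rfl fun e _ => (H R h _ hx e).area ht (by linarith [hR R h])]
    exact up _ _ (ex R) (f.area R h x hx t ht a)

end Vale.Agent.P218N.Ext
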