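import Vale.Agent.P218N.Ext.Far
import Vale.Agent.P218N.End.ApiAB

/-! From jets to functions: pointwise bounds, the joined jet. -/

open Set Filter Topology Metric

noncomputable section

namespace Vale.Agent.P218N.Ext

open Vale.Agent.P218N.End Vale.Agent.P218N.J Vale.Agent.P218N.Core Vale.Agent.P218N.H
  Vale.Agent.P218N.Core.PathP Vale.Agent.P218N.End.RE Vale.Agent.P218N.Ra

variable {w : E3 → ℝ} {D : EndData w} {zm T T' R t t' B : ℝ} {γ γ' : Path} {k n m : ℕ}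
  {j j' j₁ jf : EJ} {Γ : Ctr} {e : En D}

/-! ### Weighted bounds -/

theorem smul_pt {μ : ℤ → ℝ} {L M : ℝ} (h : Γ.PG μ) (hL : ∀ m, |μ m| ≤ L * br m) (hM : 0 ≤ M)
    (hm : ∀ m : ℤ, (m : ℝ) ^ 2 ≤ M * (|μ m| + 1)) (hj : Γ.IsJet j) (t : ℝ) (hio : ‖Γ.io t‖ ≤ 1)
    {z : ℂ} (hz : ‖z‖ ^ 2 * ‖Γ.io t‖ ≤ 1 ^ 2) :
    ‖z • tr t j.pt‖ ≤ 1 * √(66 * M) * (‖tr t (Γ.piJ μ j)‖ + L / 2 * ‖tr t j.y2‖) := by
  refine W.norm_le_of_hasSum (((tr t (Γ.piJ μ j)).hasSum.add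
    ((tr t j.y2).hasSum.mul_left (L / 2))).mul_left _) fun m => ?_
  have e : (z • tr t j.pt).c m = z * (m * Complex.I * Γ.io t * (la ((μ m : ℂ) / 2 * Γ.io t))⁻¹) *
      ((tr t (Γ.piJ μ j)).c m - (μ m : ℂ) / 2 * ((br m : ℝ) : ℂ)⁻¹ * (tr t j.y2).c m) := by
    rw [W.c_smul, c_tr, c_tr, c_tr, h.c_piJ hj, (hj m).2.2, EJ.c_y]
    have := la_ne ((μ m : ℂ) / 2 * Γ.io t)
    simp only [BoundedContinuousFunction.smul_apply, BoundedContinuousFunction.mul_apply,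
      smul_eq_mul]
    generalize la ((μ m : ℂ) / 2 * Γ.io t) = l at *
    field_simp
    ring
  rw [e, norm_mul]
  refine mul_le_mul (AB.npt zero_le_one hz hio hM (hm m)) ((norm_sub_le _ _).trans ?_)
    (norm_nonneg _) (by positivity)
  rw [norm_mul]
  gcongr
  exact AB.nmu2 hL m

/-- the constant of the weighted bounds -/
def Cw : En D → ℝ
  | .inl i => √(66 * (2 / cc i ^ 2)) * (1 + cc i ^ 2) + 1
  | .inr _ => √(66 * 2) * (1 + 1) + 1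

theorem one_le_Cw (e : En D) : 1 ≤ Cw e := by
  cases e <;> exact le_add_of_nonneg_left (by positivity)

theorem cc_pos (i : Fin D.a) : 0 < cc i := inv_pos.2 (D.link i).pos

theorem om_io (h : γ.RealP T) (hT : 1000 ≤ T) (e : En D) (t : ℝ) :
    0 ≤ OmE e (γ.ze t).re ∧ OmE e (γ.ze t).re * ‖(ctr γ e).io t‖ ≤ 1 ∧
      √(OmE e (γ.ze t).re) ≤ (γ.ze t).re := by
  have h1 := h.T_le t
  have h2 := h.norm_ze (by linarith) t
  have h3 : 0 < (γ.ze t).re := by linarith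
  rw [ctr_io h hT]
  cases e with
  | inl i =>
    refine ⟨sq_nonneg _, le_of_eq ?_, (Real.sqrt_sq h3.le).le⟩
    simp only [OmE, ioE, norm_mul, norm_inv, h2]
    field_simp
  | inr i =>
    refine ⟨h3.le, ?_, Real.sqrt_le_iff.2 ⟨h3.le, by change (γ.ze t).re ≤ _; nlinarith⟩⟩
    simp only [OmE, ioE, norm_mul, norm_inv, h2, Complex.norm_ofNat]
    rw [← mul_assoc, mul_inv_cancel₀ h3.ne']
    norm_num

theorem ev_le (f : WB) (t θ : ℝ) : ‖ev f t θ‖ ≤ ‖tr t f‖ := by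
  rw [← sumL_tr]; exact W.norm_sumL_le _ _

theorem wj_of (h : γ.RealP T) (hT : 1000 ≤ T) (θ : ℝ) (h0 : ‖tr t j.y2‖ ≤ B)
    (h1 : ‖tr t j.op‖ ≤ B) (h2 : ‖tr t j.oq‖ ≤ B)
    (h3 : √(OmE e (γ.ze t).re) * ‖tr t j.pt‖ ≤ B) :
    WJ e (γ.ze t).re (jv (ctr γ e) j t θ) B := by
  obtain ⟨a, b, -⟩ := om_io h hT e t
  have k : ∀ f : WB, ‖tr t f‖ ≤ B → OmE e (γ.ze t).re * ‖(ctr γ e).io t * ev f t θ‖ ≤ B :=
    fun f hf => by
      rw [norm_mul, ← mul_assoc]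
      exact (mul_le_of_le_one_left (norm_nonneg _) b).trans ((ev_le f t θ).trans hf)
  have l : ∀ σ : ℤ → ℂ, (∀ m, ‖σ m‖ ≤ 1) → ‖ev (mult σ j.y2) t θ‖ ≤ B := fun σ hσ =>
    (ev_le _ t θ).trans (by
      rw [tr_mult hσ]
      exact (norm_mult_apply_le hσ _).trans (by linarith))
  rw [jv_eq]
  exact ⟨l _ symb_y, k _ h1, l _ symb_yt, k _ h2,
    (mul_le_mul_of_nonneg_left (ev_le _ t θ) (Real.sqrt_nonneg _)).trans h3, l _ symb_ytt⟩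

theorem wj (h : γ.RealP T) (hT : 1000 ≤ T) (hj : (ctr γ e).IsJet j) (θ : ℝ)
    (hB : Cw e * pN γ e j t ≤ B) : WJ e (γ.ze t).re (jv (ctr γ e) j t θ) B := by
  obtain ⟨a, b, -⟩ := om_io h hT e t
  have n0 := norm_nonneg (tr t j.y2)
  have n1 := norm_nonneg (tr t j.op)
  have n2 := norm_nonneg (tr t j.oq)
  have n3 := norm_nonneg (tr t j.pt)
  have n4 := norm_nonneg (tr t ((ctr γ e).piJ (mu e) j))
  have hp : pN γ e j t ≤ B :=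
    (le_mul_of_one_le_left (by unfold pN ptN; positivity) (one_le_Cw e)).trans hB
  unfold pN ptN at hp hB
  refine wj_of h hT θ (by linarith) (by linarith) (by linarith) (le_trans ?_ hB)
  have hz : ‖((√(OmE e (γ.ze t).re) : ℝ) : ℂ)‖ ^ 2 * ‖(ctr γ e).io t‖ ≤ 1 ^ 2 := by
    rwa [Complex.norm_real, Real.norm_eq_abs, sq_abs, Real.sq_sqrt a, one_pow]
  have hio := ((ctr γ e).io.norm_coe_le_norm t).trans (io_le h hT e)
  have key : ∀ L M : ℝ, 0 ≤ L → (∀ m, |mu e m| ≤ L * br m) → 0 ≤ M →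
      (∀ m : ℤ, (m : ℝ) ^ 2 ≤ M * (|mu e m| + 1)) → √(OmE e (γ.ze t).re) * ‖tr t j.pt‖ ≤
      (√(66 * M) * (1 + L) + 1) * (‖tr t j.y2‖ + ‖tr t j.op‖ + ‖tr t j.oq‖ + ‖tr t j.pt‖ +
        ‖tr t ((ctr γ e).piJ (mu e) j)‖) := fun L M hL h1 hM h2 => by
    have := smul_pt (ctr_pg h hT e) h1 hM h2 hj t hio hz
    rw [norm_smul, Complex.norm_real, Real.norm_of_nonneg (Real.sqrt_nonneg _), one_mul] at this
    refine this.trans ((mul_le_mul_of_nonneg_left (b := _) (c := (1 + L) * _) ?_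
      (Real.sqrt_nonneg _)).trans ((mul_assoc _ _ _).ge.trans (mul_le_mul_of_nonneg_right
        (le_add_of_nonneg_right zero_le_one) (by positivity))))
    nlinarith [mul_nonneg hL n0, mul_nonneg hL n1, mul_nonneg hL n2, mul_nonneg hL n3,
      mul_nonneg hL n4]
  cases e with
  | inl i =>
    refine key _ _ (sq_nonneg _) (muCone_le _) (by positivity) fun m => ?_
    have := cc_pos i
    have h2 : 2 / cc i ^ 2 * muCone (cc i) m = (m : ℝ) ^ 2 := by unfold muCone; field_simp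
    have h3 : 0 ≤ 2 / cc i ^ 2 := by positivity
    change _ ≤ _ * (|muCone (cc i) m| + 1)
    linarith [mul_le_mul_of_nonneg_left (le_abs_self (muCone (cc i) m)) h3]
  | inr i => exact key _ _ zero_le_one muCyl_le zero_le_two AB.le_muCyl

theorem wj_core (h : γ.RealP T) (hT : 1000 ≤ T) (θ : ℝ) {P : ℝ} (hP : (γ.ze t).re ≤ P)
    (hB : P * ‖j‖ ≤ B) : WJ e (γ.ze t).re (jv (ctr γ e) j t θ) B := by
  have h1 : ‖j‖ ≤ B := (le_mul_of_one_le_left (norm_nonneg _) (by linarith [h.T_le t])).trans hB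
  exact wj_of h hT θ ((norm_tr_apply_le _ _).trans (j.norm_y2_le.trans h1))
    ((norm_tr_apply_le _ _).trans (j.norm_op_le.trans h1))
    ((norm_tr_apply_le _ _).trans (j.norm_oq_le.trans h1))
    ((mul_le_mul ((om_io h hT e t).2.2.trans hP) ((norm_tr_apply_le _ _).trans j.norm_pt_le)
      (norm_nonneg _) (by linarith [h.T_le t])).trans hB)

/-! ### The joined jet -/

/-- the last segment before `R` -/
def mR (zm R : ℝ) : ℕ := ⌊R - zm⌋₊ - 1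

theorem mR_spec (hR : TT zm n + 2 ≤ R) :
    n + 1 ≤ mR zm R ∧ R - 1 ≤ TT zm (mR zm R) ∧ TT zm (mR zm R) ≤ R := by
  unfold TT at *
  have h0 : (0 : ℝ) ≤ n := n.cast_nonneg
  have h1 : n + 3 ≤ ⌊R - zm⌋₊ := Nat.le_floor (by push_cast; linarith)
  have h2 := Nat.floor_le (show 0 ≤ R - zm by linarith)
  have h3 := Nat.lt_floor_add_one (R - zm)
  have h4 : (mR zm R : ℝ) = ⌊R - zm⌋₊ - 1 := by
    rw [mR, Nat.cast_sub (by omega), Nat.cast_one]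
  exact ⟨by unfold mR; omega, by linarith, by linarith⟩

theorem gam_T' (zm : ℝ) (n m : ℕ) : (gam zm (n + 1) m).RealP (TT zm n) := by
  have := gam_real zm (n + 1) m
  rwa [Nat.cast_succ, ← add_assoc] at this

theorem TT_ge (hz : 1000 ≤ zm) (n : ℕ) : 1000 ≤ TT zm n := by
  unfold TT; linarith [n.cast_nonneg (α := ℝ)]

open Classical in
/-- the parametrisation of the universal path along the segment -/
def ph (zm : ℝ) (n : ℕ) (R : ℝ) : ℝ → ℝ :=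
  if h : ∃ φ, Sub φ (sg (TT zm n) R) (gam zm (n + 1) (mR zm R)) ∧ φ 0 = 0 then h.choose else 0

theorem ph_spec (hR : TT zm n + 2 ≤ R) :
    Sub (ph zm n R) (sg (TT zm n) R) (gam zm (n + 1) (mR zm R)) ∧ ph zm n R 0 = 0 := by
  have h := subStmt.2.1 _ _ R (gam_T' zm n (mR zm R)) (by linarith) (by
    rw [gam_ze, Complex.ofReal_re, zr_hi (mR_spec hR).1 (tau_le_one _)]
    exact (mR_spec hR).2.2)
  rw [ph, dif_pos h]
  exact h.choose_spec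

/-- composition -/
def cmpE (φ : ℝ → ℝ) : EJ →L[ℂ] EJ :=
  (cmpW φ).prodMap ((cmpW φ).prodMap ((cmpW φ).prodMap (cmpW φ)))

/-- the joined jet -/
def JJ (zm : ℝ) (n : ℕ) (R : ℝ) : EJ × EJ →L[ℂ] EJ :=
  (Cat (tau (n + 1))).comp ((ContinuousLinearMap.id ℂ EJ).prodMap (cmpE (ph zm n R)))

theorem JJ_apply (j j' : EJ) :
    JJ zm n R (j, j') = Cat (tau (n + 1)) (j, j'.cmp (ph zm n R)) := rfl

theorem sgR (hR : TT zm n + 2 ≤ R) : (sg (TT zm n) R).RealP (TT zm n) := sg_real (by linarith)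

theorem cl_zero : cl 0 = 0 := PolyP.cl_of_nonpos le_rfl

theorem cl_of_mem (ht : t ∈ Icc (0 : ℝ) 1) : cl t = t := by
  rw [cl, min_eq_left ht.2, max_eq_right ht.1]

theorem JJ_cj (hz : 1000 ≤ zm) (hR : TT zm n + 2 ≤ R) (j j' : EJ) :
    JJ zm n R (j.cj, j'.cj) = (JJ zm n R (j, j')).cj := by
  have a := (trStmt _ _ _ 1 one_pos (sgR hR).ok (gam_real ..).ok (ph_spec hR).1 (sgR hR).dir
    ((sgR hR).one_le (by linarith [TT_ge hz n]))).1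
  have e : ∀ f, cmpW (ph zm n R) (W.cj f) = W.cj (cmpW (ph zm n R) f) := fun f =>
    ext_ev fun t θ => by rw [← sumL_tr, ← sumL_tr, ← cj_tr, a, a, cj_tr]
  rw [JJ_apply, JJ_apply, ← cat_cj]
  exact congrArg (fun x => Cat _ (j.cj, x)) (EJ.ext' (e _) (e _) (e _) (e _))

theorem matching (hz : 1000 ≤ zm) (hn : 4 ≤ n) (hR : TT zm n + 2 ≤ R)
    (a₁ : (ctr (gam zm 4 n) e).IsJet j₁) (b₁ : EE (gam zm 4 n) e j₁ = 0)
    (h : Cont zm n R e j₁ jf) : (ctr (gam zm (n + 1) (mR zm R)) e).IsJet (jf.cmp (ph zm n R)) ∧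
      EE (gam zm (n + 1) (mR zm R)) e (jf.cmp (ph zm n R)) = 0 ∧
      EqAt j₁ (tau (n + 1)) (jf.cmp (ph zm n R)) (tau (n + 1)) := by
  obtain ⟨hs, h0⟩ := ph_spec hR
  obtain ⟨a₂, b₂, c₂⟩ := jet_cmp (sgR hR) (TT_ge hz n) (gam_real ..).ok hs e h.jet
  rw [h.sol, map_zero] at b₂
  have z1 : (gam zm 4 n).ze (tau (n + 1)) = (gam zm 4 n).ze 1 := by
    rw [gam_ze, gam_ze, zr_hi hn le_rfl, zr_hi hn (tau_le_one _)]
  have z2 : (gam zm (n + 1) (mR zm R)).ze (tau (n + 1)) = (gam zm (n + 1) (mR zm R)).ze 0 := by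
    rw [gam_ze, gam_ze, zr_lo le_rfl, zr_lo (tau_nonneg _)]
  have hy : tr (tau (n + 1)) j₁.y2 = tr 0 jf.y2 := by rw [same_y2 (gam_real ..) a₁ z1, h.my]
  refine ⟨a₂, b₂, eqAt_of hz e a₁ a₂ b₁ b₂ ?_ ?_ ?_ fun θ => ?_⟩
  · rw [zr_hi hn le_rfl, zr_lo le_rfl, TT, Nat.cast_succ, add_assoc]
  · rw [hy, same_y2 (gam_real ..) a₂ z2,
      (eqAt_cmp (sgR hR) (TT_ge hz n) (gam_real ..).ok hs jf 0).1, cl_zero, h0]
  · rw [same_pi (gam_real ..) (gam_T hz _) a₁ z1, same_pi (gam_real ..) (gam_T hz _) a₂ z2, c₂,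
      cl_zero, h0, h.mp, piT]
  · rw [(ev_y hy θ).1, (ev_y hy θ).2.1]
    exact h.nd θ

theorem JJ_sol (hz : 1000 ≤ zm) (hn : 4 ≤ n) (hR : TT zm n + 2 ≤ R)
    (a₁ : (ctr (gam zm 4 n) e).IsJet j₁) (b₁ : EE (gam zm 4 n) e j₁ = 0)
    (h : Cont zm n R e j₁ jf) : (ctr (gam zm 4 (mR zm R)) e).IsJet (JJ zm n R (j₁, jf)) ∧
      EE (gam zm 4 (mR zm R)) e (JJ zm n R (j₁, jf)) = 0 :=
  let ⟨a₂, b₂, c⟩ := matching hz hn hR a₁ b₁ h
  cat_sol hz e hn (mR_spec hR).1 a₁ a₂ b₁ b₂ c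

theorem tt_mem {ζ : ℝ} (h : k ≤ n) (hζ : ζ ∈ Icc (zm + k) (TT zm n)) :
    tt zm ζ ∈ Icc (tau k) (tau (n + 1)) := by
  rw [← zr_tt h hζ, tt_zr h]
  exact clp_mem h _

theorem mem01 (ht : t ∈ Icc (tau k) (tau n)) : t ∈ Icc (0 : ℝ) 1 :=
  ⟨(tau_nonneg _).trans ht.1, ht.2.trans (tau_le_one _)⟩

theorem sg_ex {x : ℝ} (hx : x ∈ Icc T R) : ∃ t ∈ Icc (0 : ℝ) 1, ((sg T R).ze t).re = x := by
  obtain ⟨t, ht⟩ := sg_surj hx
  exact ⟨cl t, cl_mem t, by rw [PolyP.ze_cl (sg_real (hx.1.trans hx.2)).ok, ht, Complex.ofReal_re]⟩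

/-- the parameter of a point of the far part -/
theorem ph_tt (hR : TT zm n + 2 ≤ R) (ht : t ∈ Icc (0 : ℝ) 1)
    (hζ : ((sg (TT zm n) R).ze t).re ≤ R - 1) :
    tt zm ((sg (TT zm n) R).ze t).re ∈ Icc (tau (n + 1)) (tau (mR zm R + 1)) ∧
      ph zm n R (cl (tt zm ((sg (TT zm n) R).ze t).re)) = t := by
  obtain ⟨m1, m2, -⟩ := mR_spec hR
  have hm : ((sg (TT zm n) R).ze t).re ∈ Icc (zm + (n + 1 : ℕ)) (TT zm (mR zm R)) :=
    ⟨by rw [Nat.cast_succ, ← add_assoc]; exact (sgR hR).T_le t, hζ.trans m2⟩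
  have hs : StrictMonoOn (fun t => ((sg (TT zm n) R).ze t).re) (Icc 0 1) := by
    refine pg_strictMono ?_ ?_ ?_ <;> simp <;> linarith
  refine ⟨tt_mem m1 hm, hs.injOn ((ph_spec hR).1.maps (cl_mem _)) ht ?_⟩
  rw [← sub_ze (ph_spec hR).1 (gam_real ..).ok, gam_ze, Complex.ofReal_re, zr_tt m1 hm]

theorem jv_lo (hz : 1000 ≤ zm) (hn : 4 ≤ n) (hR : TT zm n + 2 ≤ R) (ht : t ≤ tau (n + 1))
    (θ : ℝ) : jv (ctr (gam zm 4 (mR zm R)) e) (JJ zm n R (j₁, jf)) t θ =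
      jv (ctr (gam zm 4 n) e) j₁ t θ :=
  jv_at (eqAt_lo _ _ ht) (io_lo hz e hn (by linarith [(mR_spec hR).1]) ht) θ

theorem jv_hi (hz : 1000 ≤ zm) (hn : 4 ≤ n) (hR : TT zm n + 2 ≤ R)
    (a₁ : (ctr (gam zm 4 n) e).IsJet j₁) (b₁ : EE (gam zm 4 n) e j₁ = 0)
    (h : Cont zm n R e j₁ jf) (ht : t ∈ Icc (0 : ℝ) 1) (hζ : ((sg (TT zm n) R).ze t).re ≤ R - 1)
    (θ : ℝ) : jv (ctr (gam zm 4 (mR zm R)) e) (JJ zm n R (j₁, jf))
      (tt zm ((sg (TT zm n) R).ze t).re) θ = jv (ctr (sg (TT zm n) R) e) jf t θ := by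
  obtain ⟨h1, h2⟩ := ph_tt hR ht hζ
  rw [JJ_apply, jv_at (eqAt_hi (matching hz hn hR a₁ b₁ h).2.2 h1.1)
    (io_hi hz e (by omega) (mR_spec hR).1 h1.1),
    jv_cmp (sgR hR) (TT_ge hz n) (gam_real ..) (gam_T hz _) (ph_spec hR).1, h2]

/-! ### The jets of the shrinker -/

variable {jE : En D → Path → EJ} {dS πS : En D → ℝ → WD} {Z C : ℝ}

theorem jE_jet (hE : RealEnds D jE dS πS Z C) (h : γ.RealP T) (hZ : Z ≤ T) (e : En D) :
    (ctr γ e).IsJet (jE e γ) ∧ (∀ t θ, ev (jE e γ).y t θ = yS e ((γ.ze t).re, θ)) ∧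
      ∀ T' γ' φ, γ'.RealP T' → Sub φ γ γ' → jE e γ' = (jE e γ).cmp φ := by
  cases e with
  | inl i => exact ⟨((hE.cone i).sol _ _ hZ h).1, (hE.cone i).ev_y _ _ hZ h,
      fun _ _ _ => (hE.cone i).cmp _ _ _ _ _ hZ h⟩
  | inr i => exact ⟨((hE.cyl i).sol _ _ hZ h).1, (hE.cyl i).ev_y _ _ hZ h,
      fun _ _ _ => (hE.cyl i).cmp _ _ _ _ _ hZ h⟩

theorem jv_jE (hE : RealEnds D jE dS πS Z C) (h : γ.RealP T) (hZ : Z ≤ T) (hT : 1000 ≤ T)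
    (h' : γ'.RealP T') (hT' : 1000 ≤ T') {φ : ℝ → ℝ} (hs : Sub φ γ γ') (t θ : ℝ) :
    jv (ctr γ' e) (jE e γ') t θ = jv (ctr γ e) (jE e γ) (φ (cl t)) θ := by
  rw [(jE_jet hE h hZ e).2.2 _ _ _ h' hs, jv_cmp h hT h' hT' hs]

theorem sub_gam {k' n' : ℕ} (h1 : k' ≤ k) (h : k ≤ n) (h2 : n ≤ n') :
    Sub (clp k n) (gam zm k' n') (gam zm k n) :=
  ⟨(clp k n).continuous.continuousOn, fun t _ => mem01 (clp_mem h t),
    fun t _ => (ze_res h1 h h2 t).symm⟩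

theorem jv_gam (hE : RealEnds D jE dS πS Z C) (hz : 1000 ≤ zm) (hZ : Z ≤ zm) {k' n' : ℕ}
    (h1 : k' ≤ k) (h : k ≤ n) (h2 : n ≤ n') (ht : t ∈ Icc (tau k) (tau (n + 1))) (θ : ℝ) :
    jv (ctr (gam zm k n) e) (jE e (gam zm k n)) t θ =
      jv (ctr (gam zm k' n') e) (jE e (gam zm k' n')) t θ := by
  rw [jv_jE hE (gam_real ..) (hZ.trans (le_add_of_nonneg_right k'.cast_nonneg)) (gam_T hz _)
    (gam_real ..) (gam_T hz _) (sub_gam h1 h h2), cl_of_mem (mem01 ht), clp_of_mem ht]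

theorem jy_eq (hE : RealEnds D jE dS πS Z C) (hz : 1000 ≤ zm) (hZ : Z ≤ zm) {q : R2}
    (hq : q.1 ∈ Ioo (zm + k) (TT zm n)) : ContDiffAt ℝ 2 (fun z => (yS e z : ℂ)) q ∧
      jy e q = jv (ctr (gam zm k n) e) (jE e (gam zm k n)) (tt zm q.1) q.2 := by
  obtain ⟨a, b, -⟩ := jE_jet hE (gam_real zm k n)
    (hZ.trans (le_add_of_nonneg_right k.cast_nonneg)) e
  obtain ⟨c, d⟩ := (pathStmt w D zm hz).c2 k n e _ q a hq
  have he : (fun z => (yS e z : ℂ)) =ᶠ[𝓝 q]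
      fun z : R2 => ev (jE e (gam zm k n)).y (tt zm z.1) z.2 := by
    filter_upwards [ev_mem hq] with z hz
    rw [b, gam_ze, Complex.ofReal_re, zr_tt (le_of_mem hq) (Ioo_subset_Icc_self hz)]
  exact ⟨c.congr_of_eventuallyEq he, (jet2_congr he).trans d⟩

theorem jy_lo (hE : RealEnds D jE dS πS Z C) (hz : 1000 ≤ zm) (hZ : Z ≤ zm) (hn : 4 ≤ n)
    (hm : n ≤ m) {q : R2} (hq : q.1 ∈ Ioo (zm + (4 : ℕ)) (TT zm m)) (h : q.1 ≤ TT zm n) :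
    jy e q = jv (ctr (gam zm 4 n) e) (Res 4 n (jE e (gam zm 0 n))) (tt zm q.1) q.2 := by
  have ht := tt_mem hn ⟨hq.1.le, h⟩
  rw [(jy_eq hE hz hZ hq).2, ← jv_gam hE hz hZ le_rfl hn hm ht,
    jv_gam hE hz hZ (Nat.zero_le _) hn le_rfl ht]
  ext i
  rw [jv, jv, jw_res hz (Nat.zero_le _) hn le_rfl, ev_res, clp_of_mem ht]

theorem jy_hi (hE : RealEnds D jE dS πS Z C) (hz : 1000 ≤ zm) (hZ : Z ≤ zm) (hn : 4 ≤ n)
    (hR : TT zm n + 2 ≤ R) (ht : t ∈ Icc (0 : ℝ) 1) (hζ : ((sg (TT zm n) R).ze t).re < R - 1)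
    (θ : ℝ) : jy e (((sg (TT zm n) R).ze t).re, θ) =
      jv (ctr (sg (TT zm n) R) e) (jE e (sg (TT zm n) R)) t θ := by
  obtain ⟨h1, h2⟩ := ph_tt hR ht hζ.le
  obtain ⟨m1, m2, -⟩ := mR_spec hR
  have h4 : (4 : ℝ) ≤ n := by exact_mod_cast hn
  have h3 : TT zm n = zm + n + 1 := rfl
  rw [(jy_eq (k := 4) (n := mR zm R) hE hz hZ ⟨by push_cast; linarith [(sgR hR).T_le t],
    hζ.trans_le m2⟩).2, ← jv_gam hE hz hZ (show 4 ≤ n + 1 by omega) m1 le_rfl h1,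
    jv_jE hE (sgR hR) (by linarith) (TT_ge hz n) (gam_real ..) (gam_T hz _) (ph_spec hR).1, h2]

end Vale.Agent.P218N.Ext
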